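import Vale.Agent.P253.R2.H156.Glob

/-!
P253: one-parameter semigroups of holomorphic self-maps (times `t ≥ 0`).
-/

open scoped Manifold ContDiff Topology
open Set Metric Complex Filter IsManifold

noncomputable section

namespace Vale.Agent.P253.H567

variable (E : Type*) [NormedAddCommGroup E] [NormedSpace ℂ E] in
/-- `ρ t`, `t ≥ 0`, is a continuous one-parameter semigroup of holomorphic self-maps of the
complex manifold `M`. -/
structure IsHolSemigroup {M : Type*} [TopologicalSpace M] [ChartedSpace E M] (ρ : ℝ → M → M) :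
    Prop where
  zero : ∀ x, ρ 0 x = x
  add : ∀ s t x, 0 ≤ s → 0 ≤ t → ρ (s + t) x = ρ s (ρ t x)
  cont : ContinuousOn (fun q : ℝ × M => ρ q.1 q.2) {q | 0 ≤ q.1}
  holo : ∀ t, 0 ≤ t → MDifferentiable 𝓘(ℂ, E) 𝓘(ℂ, E) (ρ t)

variable (E : Type*) [NormedAddCommGroup E] [NormedSpace ℂ E] in
/-- `ρ t`, `t ≥ 0`, is a smooth one-parameter semigroup of holomorphic self-maps of the complex
manifold `M`. -/
structure IsHolSemiflow {M : Type*} [TopologicalSpace M] [ChartedSpace E M] (ρ : ℝ → M → M) :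
    Prop where
  zero : ∀ x, ρ 0 x = x
  add : ∀ s t x, 0 ≤ s → 0 ≤ t → ρ (s + t) x = ρ s (ρ t x)
  smooth : ContMDiffOn (𝓘(ℝ, ℝ).prod 𝓘(ℝ, E)) 𝓘(ℝ, E) ∞ (fun q : ℝ × M => ρ q.1 q.2)
    {q | 0 ≤ q.1}
  holo : ∀ t, 0 ≤ t → MDifferentiable 𝓘(ℂ, E) 𝓘(ℂ, E) (ρ t)

theorem IsHolSemiflow.isHolSemigroup {E : Type*} [NormedAddCommGroup E] [NormedSpace ℂ E]
    {M : Type*} [TopologicalSpace M] [ChartedSpace E M] {ρ : ℝ → M → M}
    (h : IsHolSemiflow E ρ) : IsHolSemigroup E ρ :=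
  ⟨h.zero, h.add, h.smooth.continuousOn, h.holo⟩

variable (E : Type*) [NormedAddCommGroup E] [NormedSpace ℂ E] in
/-- `f` is a complex-time orbit of the semigroup near `ζ` -/
def Orb {M : Type*} [TopologicalSpace M] [ChartedSpace E M] (ρ : ℝ → M → M) (f : ℂ → M)
    (ζ : ℂ) : Prop :=
  (∀ᶠ w in 𝓝 ζ, MDifferentiableAt 𝓘(ℂ, ℂ) 𝓘(ℂ, E) f w) ∧
    ∀ᶠ w in 𝓝 ζ, ∀ᶠ t : ℝ in 𝓝[>] 0, f (w + t) = ρ t (f w)

end Vale.Agent.P253.H567
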