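import Vale.Agent.P253.H567.Main
import Vale.Agent.P253.S445.Conv

/-!
P253: the consequences of the extension theorem for semigroups, for continuous semigroups.
-/

open scoped Manifold ContDiff Topology Bundle
open Set Metric Complex Filter Bundle IsManifold Manifold Vale.Agent.P253.Mfd
  Vale.Agent.P253.CStar

set_option maxSynthPendingDepth 3
set_option linter.unusedSectionVars false

noncomputable section

namespace Vale.Agent.P253.H567

open Vale.Agent.P253.R2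

variable {E : Type*} [NormedAddCommGroup E] [NormedSpace ℂ E] [FiniteDimensional ℂ E]
  {M : Type*} [MetricSpace M] [ChartedSpace E M] [IsManifold 𝓘(ℂ, E) 1 M]
  [IsManifold 𝓘(ℝ, E) ∞ M]

theorem HasSExt.toS445 (h : HasSExt E M) : S445.HasSExt E M := h

/-- each map of a semigroup which extends to `ℂ` is bijective -/
theorem bijective_of_ext {ρ : ℝ → M → M} {ψ : ℂ → M → M} (hψ : R2.IsHolCFlow E ψ)
    (he : ∀ t : ℝ, 0 ≤ t → ∀ x, ψ t x = ρ t x) {t : ℝ} (ht : 0 ≤ t) :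
    Function.Bijective (ρ t) := by
  have h1 : ρ t = ψ t := funext fun x => (he t ht x).symm
  rw [h1]
  refine Function.bijective_iff_has_inverse.2 ⟨ψ (-t), fun x => ?_, fun x => ?_⟩
  · rw [← hψ.add, neg_add_cancel, hψ.zero]
  · rw [← hψ.add, add_neg_cancel, hψ.zero]

variable [RiemannianBundle (fun x : M => TangentSpace 𝓘(ℝ, E) x)]
  [IsContMDiffRiemannianBundle 𝓘(ℝ, E) ∞ E (fun x : M => TangentSpace 𝓘(ℝ, E) x)]
  [IsRiemannianManifold 𝓘(ℝ, E) M]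

/-- all the consequences for semigroups with an attracting fixed point -/
theorem final (hK : IsKahler E M) [CompleteSpace M] [NoncompactSpace M] [ConnectedSpace M]
    (hnn : ∀ x : M, NonnegBisectionalAt E x) (hExt : HasSExt E M) :
    (∀ ρ : ℝ → M → M, IsHolSemigroup E ρ → ∀ p : M, S445.IsAttrFixedPoint E ρ p →
      PosBisectionalAt E p →
      ∃ F : M ≃ₘ^1⟮𝓘(ℂ, E), 𝓘(ℂ, E)⟯ E, F p = 0 ∧
        (∀ v : E, (mfderiv 𝓘(ℂ, E) 𝓘(ℂ, E) F p : E → E) v = v) ∧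
        ∀ t : ℝ, 0 ≤ t → ∀ x : M, F (ρ t x) =
          (mfderiv 𝓘(ℂ, E) 𝓘(ℂ, E) (ρ t) p : E → E) (F x)) ∧
    ((∀ x : M, PosBisectionalAt E x) →
      (Nonempty (M ≃ₘ^1⟮𝓘(ℂ, E), 𝓘(ℂ, E)⟯ E) ↔
        ∃ ρ : ℝ → M → M, IsHolSemigroup E ρ ∧ ∃ p : M, S445.IsAttrFixedPoint E ρ p)) := by
  refine ⟨fun ρ hρ p hp hpos => ?_, fun hall => ⟨?_, ?_⟩⟩
  · obtain ⟨ψ, hψ, he⟩ := hExt ρ hρ
    exact S445.main_attr hK hnn hψ he hp hpos
  · rintro ⟨F⟩
    obtain ⟨ρ, hρ, p, hp⟩ := S445.converse_semi F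
    exact ⟨ρ, hρ, p, hp⟩
  · rintro ⟨ρ, hρ, p, hp⟩
    obtain ⟨ψ, hψ, he⟩ := hExt ρ hρ
    obtain ⟨F, -⟩ := S445.main_attr hK hnn hψ he hp (hall p)
    exact ⟨F⟩

end Vale.Agent.P253.H567
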