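import Vale.Agent.P253.H567.GenC

/-!
P253: the local complex-time flow extending a one-sided local holomorphic flow in a chart.
-/

open scoped Manifold ContDiff Topology
open Set Metric Complex Filter IsManifold Vale.Agent.P253.Mfd

set_option maxSynthPendingDepth 3
set_option linter.unusedSectionVars false

noncomputable section

namespace Vale.Agent.P253.H567

variable {E : Type*} [NormedAddCommGroup E] [NormedSpace ℂ E] [FiniteDimensional ℂ E]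

/-- the local complex-time flow extending a one-sided local holomorphic flow in a chart -/
theorem exists_cflow {F : ℝ × E → E} {τ r : ℝ} {z₀ : E} (hτ : 0 < τ) (hr : 0 < r)
    (hF : ContinuousOn F (Ico 0 τ ×ˢ ball z₀ r)) (h0 : ∀ z ∈ ball z₀ r, F (0, z) = z)
    (hol : ∀ t ∈ Ico 0 τ, DifferentiableOn ℂ (fun z => F (t, z)) (ball z₀ r))
    (semi : ∀ z ∈ ball z₀ r, ∀ t ∈ Ico 0 τ, F (t, z) ∈ ball z₀ r →
      ∀ s : ℝ, 0 ≤ s → t + s < τ → F (t + s, z) = F (s, F (t, z))) :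
    ∃ δ > 0, δ ≤ τ ∧ ∃ r' > 0, r' ≤ r ∧ ∃ Hc : ℂ → E → E,
      (DifferentiableOn ℂ (fun q : ℂ × E => Hc q.1 q.2) (ball 0 δ ×ˢ ball z₀ r')) ∧
      (∀ ζ ∈ ball (0:ℂ) δ, ∀ z ∈ ball z₀ r', Hc ζ z ∈ ball z₀ r) ∧
      (∀ z ∈ ball z₀ r', ∀ t : ℝ, t ∈ Ico 0 δ → Hc t z = F (t, z)) ∧
      ((HasDerivAt (fun ζ => Hc ζ z₀) 0 0) → ∀ t ∈ Ico 0 δ, F (t, z₀) = z₀) := by
  obtain ⟨r₁, hr₁, hr₁r, V, hV, hVF⟩ := exists_genC hτ hr hF h0 hol semi
  have hz₀ : z₀ ∈ ball z₀ r := mem_ball_self hr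
  -- Lipschitz ball
  have hVs : ContDiffAt ℂ 1 V z₀ :=
    ((contDiffOn_of_differentiableOn_complex isOpen_ball hV).contDiffAt
      (isOpen_ball.mem_nhds (mem_ball_self hr₁))).of_le (by simp)
  obtain ⟨K, t₁, ht₁, hK⟩ := (hVs.restrict_scalars ℝ).exists_lipschitzOnWith
  obtain ⟨r₀, hr₀, hr₀t⟩ := Metric.mem_nhds_iff.1
    (inter_mem ht₁ (isOpen_ball.mem_nhds (mem_ball_self hr₁)))
  have hr₀1 : ball z₀ r₀ ⊆ t₁ := fun z hz => (hr₀t hz).1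
  have hr₀2 : ball z₀ r₀ ⊆ ball z₀ r₁ := fun z hz => (hr₀t hz).2
  have hr₀3 : ball z₀ r₀ ⊆ ball z₀ r := hr₀2.trans (ball_subset_ball hr₁r)
  have hKL : LipschitzOnWith K V (ball z₀ r₀) := hK.mono hr₀1
  -- the flow with the time as a parameter
  have hU' : IsOpen ((univ : Set ℂ) ×ˢ ball z₀ r₀) := isOpen_univ.prod isOpen_ball
  have hv' : DifferentiableOn ℂ (fun q : ℂ × E => ((0 : ℂ), q.1 • V q.2))
      ((univ : Set ℂ) ×ˢ ball z₀ r₀) := by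
    refine DifferentiableOn.prodMk (differentiableOn_const _) ?_
    refine DifferentiableOn.smul differentiableOn_fst ?_
    exact (hV.mono hr₀2).comp differentiableOn_snd (fun q hq => hq.2)
  obtain ⟨ε, hε, ρ', hρ', Y, hball, hY, hYd, -⟩ := exists_holoFlow hU' hv'
    (x₀ := ((0 : ℂ), z₀)) ⟨mem_univ _, mem_ball_self hr₀⟩
  set s₀ : ℝ := ε / 2 with hs₀
  have hs₀pos : 0 < s₀ := by positivity
  have hs₀m : s₀ ∈ Ioo (-ε) ε := ⟨by rw [hs₀]; linarith, by rw [hs₀]; linarith⟩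
  have hprod : ∀ (η : ℂ) (z : E), ‖η‖ < ρ' → z ∈ ball z₀ ρ' → (η, z) ∈ ball ((0 : ℂ), z₀) ρ' := by
    intro η z h1 h2
    rw [Metric.mem_ball, Prod.dist_eq, max_lt_iff]
    exact ⟨by simpa using h1, h2⟩
  -- first component
  have hfst : ∀ q ∈ ball ((0 : ℂ), z₀) ρ', ∀ s ∈ Ioo (-ε) ε, (Y s q).1 = q.1 := by
    intro q hq s hs
    have hd : ∀ s ∈ Ioo (-ε) ε, HasDerivAt (fun s => (Y s q).1) 0 s := fun s hs =>
      ((hY q hq).2 s hs).2.fst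
    have h1 := (convex_Ioo (-ε) ε).is_const_of_fderivWithin_eq_zero (𝕜 := ℝ)
      (f := fun s => (Y s q).1) (fun s hs => (hd s hs).differentiableAt.differentiableWithinAt)
      (fun s hs => by
        rw [fderivWithin_of_isOpen isOpen_Ioo hs]
        have := (hd s hs).hasFDerivAt.fderiv
        rw [this]
        simp) hs (show (0:ℝ) ∈ Ioo (-ε) ε from ⟨by linarith, hε⟩)
    rw [h1, (hY q hq).1]
  -- small times
  have hF0c : ContinuousWithinAt F (Ico 0 τ ×ˢ ball z₀ r) (0, z₀) :=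
    hF (0, z₀) ⟨⟨le_rfl, hτ⟩, hz₀⟩
  have hF00 : F (0, z₀) = z₀ := h0 z₀ hz₀
  have hev : ∀ᶠ q in 𝓝[Ico 0 τ ×ˢ ball z₀ r] ((0:ℝ), z₀), F q ∈ ball z₀ r₀ := by
    have := hF0c.preimage_mem_nhdsWithin (t := ball z₀ r₀) (by
      rw [hF00]; exact ball_mem_nhds _ hr₀)
    exact this
  obtain ⟨δ₂, hδ₂, hin⟩ := Metric.mem_nhdsWithin_iff.1 hev
  have hFin : ∀ t : ℝ, 0 ≤ t → t < τ → t < δ₂ → ∀ z ∈ ball z₀ r, z ∈ ball z₀ δ₂ →
      F (t, z) ∈ ball z₀ r₀ := by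
    intro t h1 h2 h3 z hz hz2
    refine hin ⟨?_, ⟨h1, h2⟩, hz⟩
    rw [Metric.mem_ball, Prod.dist_eq, max_lt_iff]
    refine ⟨?_, hz2⟩
    rw [Real.dist_eq, sub_zero, abs_of_nonneg h1]
    exact h3
  set δ : ℝ := min (min τ δ₂) (s₀ * ρ') with hδ
  have hδpos : 0 < δ := lt_min (lt_min hτ hδ₂) (by positivity)
  have hδτ : δ ≤ τ := (min_le_left _ _).trans (min_le_left _ _)
  have hδδ₂ : δ ≤ δ₂ := (min_le_left _ _).trans (min_le_right _ _)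
  have hδρ : δ ≤ s₀ * ρ' := min_le_right _ _
  set r' : ℝ := min (min r δ₂) (min ρ' r₀) with hr'
  have hr'pos : 0 < r' := lt_min (lt_min hr hδ₂) (lt_min hρ' hr₀)
  have hr'r : r' ≤ r := (min_le_left _ _).trans (min_le_left _ _)
  have hr'δ₂ : r' ≤ δ₂ := (min_le_left _ _).trans (min_le_right _ _)
  have hr'ρ : r' ≤ ρ' := (min_le_right _ _).trans (min_le_left _ _)
  have hr'r₀ : r' ≤ r₀ := (min_le_right _ _).trans (min_le_right _ _)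
  have hnorm : ∀ ζ : ℂ, ‖ζ‖ < δ → ‖(s₀⁻¹ : ℂ) * ζ‖ < ρ' := by
    intro ζ hζ
    rw [norm_mul, norm_inv, norm_real, Real.norm_eq_abs, abs_of_pos hs₀pos]
    calc s₀⁻¹ * ‖ζ‖ < s₀⁻¹ * (s₀ * ρ') := by
          have := inv_pos.2 hs₀pos
          exact mul_lt_mul_of_pos_left (hζ.trans_le hδρ) this
      _ = ρ' := by field_simp
  -- ODE uniqueness
  have huniq : ∀ (η : ℂ) (f g : ℝ → E),
      ContinuousOn f (Icc 0 s₀) → (∀ s ∈ Ico 0 s₀, HasDerivWithinAt f (η • V (f s)) (Ici s) s) →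
      (∀ s ∈ Ico 0 s₀, f s ∈ ball z₀ r₀) →
      ContinuousOn g (Icc 0 s₀) → (∀ s ∈ Ico 0 s₀, HasDerivWithinAt g (η • V (g s)) (Ici s) s) →
      (∀ s ∈ Ico 0 s₀, g s ∈ ball z₀ r₀) → f 0 = g 0 → f s₀ = g s₀ := by
    intro η f g h1 h2 h3 h4 h5 h6 h7
    have hL : LipschitzOnWith (‖η‖₊ * K) (fun y => η • V y) (ball z₀ r₀) := by
      refine LipschitzOnWith.of_dist_le_mul fun x hx y hy => ?_
      rw [dist_eq_norm, ← smul_sub, norm_smul, NNReal.coe_mul, coe_nnnorm, mul_assoc]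
      refine mul_le_mul_of_nonneg_left ?_ (norm_nonneg _)
      rw [← dist_eq_norm]
      exact hKL.dist_le_mul x hx y hy
    exact ODE_solution_unique_of_mem_Icc_right (v := fun _ y => η • V y)
      (s := fun _ => ball z₀ r₀) (K := ‖η‖₊ * K) (fun _ _ => hL) h1 h2 h3 h4 h5 h6 h7
      ⟨hs₀pos.le, le_rfl⟩
  -- the real flow
  have hreal : ∀ z ∈ ball z₀ r', ∀ t : ℝ, t ∈ Ico 0 δ →
      ContinuousOn (fun s => F (s₀⁻¹ * t * s, z)) (Icc 0 s₀) ∧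
      (∀ s ∈ Ico 0 s₀, HasDerivWithinAt (fun s => F (s₀⁻¹ * t * s, z))
        (((s₀⁻¹ : ℂ) * t) • V (F (s₀⁻¹ * t * s, z))) (Ici s) s) ∧
      (∀ s ∈ Ico 0 s₀, F (s₀⁻¹ * t * s, z) ∈ ball z₀ r₀) := by
    intro z hz t ht
    have hzr : z ∈ ball z₀ r := ball_subset_ball hr'r hz
    have hc0 : 0 ≤ s₀⁻¹ * t := mul_nonneg (inv_pos.2 hs₀pos).le ht.1
    have hbd : ∀ s ∈ Icc 0 s₀, s₀⁻¹ * t * s ∈ Ico 0 δ := by
      intro s hs
      refine ⟨mul_nonneg hc0 hs.1, lt_of_le_of_lt ?_ ht.2⟩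
      calc s₀⁻¹ * t * s ≤ s₀⁻¹ * t * s₀ := mul_le_mul_of_nonneg_left hs.2 hc0
        _ = t := by field_simp
    refine ⟨?_, ?_, ?_⟩
    · refine hF.comp (f := fun s => (s₀⁻¹ * t * s, z)) (by fun_prop) fun s hs => ?_
      have := hbd s hs
      exact ⟨⟨this.1, this.2.trans_le hδτ⟩, hzr⟩
    · intro s hs
      have h1 := hbd s ⟨hs.1, hs.2.le⟩
      have h2 : F (s₀⁻¹ * t * s, z) ∈ ball z₀ r₀ :=
        hFin _ h1.1 (h1.2.trans_le hδτ) (h1.2.trans_le hδδ₂) z hzr (ball_subset_ball hr'δ₂ hz)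
      have h3 := hVF z hzr _ ⟨h1.1, h1.2.trans_le hδτ⟩ (hr₀2 h2)
      have h4 : HasDerivWithinAt (fun s : ℝ => s₀⁻¹ * t * s) (s₀⁻¹ * t) (Ici s) s := by
        have := ((hasDerivAt_id s).const_mul (s₀⁻¹ * t)).hasDerivWithinAt (s := Ici s)
        simpa using this
      have h5 := HasDerivWithinAt.scomp (h := fun s : ℝ => s₀⁻¹ * t * s) s h3 h4
        (fun u hu => mul_le_mul_of_nonneg_left hu hc0)
      have h6 : ((s₀⁻¹ : ℂ) * t) • V (F (s₀⁻¹ * t * s, z)) =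
          (s₀⁻¹ * t) • V (F (s₀⁻¹ * t * s, z)) := by
        rw [← ofReal_inv, ← ofReal_mul]
        rfl
      rw [h6]
      exact h5
    · intro s hs
      have h1 := hbd s ⟨hs.1, hs.2.le⟩
      exact hFin _ h1.1 (h1.2.trans_le hδτ) (h1.2.trans_le hδδ₂) z hzr (ball_subset_ball hr'δ₂ hz)
  -- the complex flow
  have hcplx : ∀ z ∈ ball z₀ r', ∀ η : ℂ, ‖η‖ < ρ' →
      ContinuousOn (fun s => (Y s (η, z)).2) (Icc 0 s₀) ∧
      (∀ s ∈ Ico 0 s₀, HasDerivWithinAt (fun s => (Y s (η, z)).2)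
        (η • V ((Y s (η, z)).2)) (Ici s) s) ∧
      (∀ s ∈ Ico 0 s₀, (Y s (η, z)).2 ∈ ball z₀ r₀) ∧ (Y 0 (η, z)).2 = z := by
    intro z hz η hη
    have hq := hprod η z hη (ball_subset_ball hr'ρ hz)
    have hsub : ∀ s ∈ Icc 0 s₀, s ∈ Ioo (-ε) ε := fun s hs =>
      ⟨by linarith [hs.1], hs.2.trans_lt hs₀m.2⟩
    have hd : ∀ s ∈ Icc 0 s₀, HasDerivAt (fun s => (Y s (η, z)).2)
        (η • V ((Y s (η, z)).2)) s := by
      intro s hs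
      have h1 := ((hY _ hq).2 s (hsub s hs)).2.snd
      have h2 := hfst _ hq s (hsub s hs)
      simp only [h2] at h1
      exact h1
    refine ⟨fun s hs => (hd s hs).continuousAt.continuousWithinAt,
      fun s hs => (hd s ⟨hs.1, hs.2.le⟩).hasDerivWithinAt,
      fun s hs => (((hY _ hq).2 s (hsub s ⟨hs.1, hs.2.le⟩)).1).2, ?_⟩
    rw [(hY _ hq).1]
  have hagree : ∀ z ∈ ball z₀ r', ∀ t : ℝ, t ∈ Ico 0 δ →
      (Y s₀ ((s₀⁻¹ : ℂ) * t, z)).2 = F (t, z) := by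
    intro z hz t ht
    have hη : ‖(s₀⁻¹ : ℂ) * t‖ < ρ' := hnorm t (by
      rw [norm_real, Real.norm_eq_abs, abs_of_nonneg ht.1]; exact ht.2)
    obtain ⟨a1, a2, a3⟩ := hreal z hz t ht
    obtain ⟨b1, b2, b3, b4⟩ := hcplx z hz _ hη
    have h1 := huniq ((s₀⁻¹ : ℂ) * t) _ _ b1 b2 b3 a1 a2 a3 (by
      rw [b4, mul_zero, h0 z (ball_subset_ball hr'r hz)])
    rw [h1]
    congr 2
    field_simp
  have hdiff : DifferentiableOn ℂ (fun q : ℂ × E => (Y s₀ ((s₀⁻¹ : ℂ) * q.1, q.2)).2)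
      (ball 0 δ ×ˢ ball z₀ r') := by
    have h1 : DifferentiableOn ℂ (fun q : ℂ × E => ((s₀⁻¹ : ℂ) * q.1, q.2))
        (ball 0 δ ×ˢ ball z₀ r') := by fun_prop
    have h2 := (hYd s₀ hs₀m).comp h1 (fun q hq =>
      hprod _ _ (hnorm q.1 (by simpa using hq.1)) (ball_subset_ball hr'ρ hq.2))
    exact h2.snd
  refine ⟨δ, hδpos, hδτ, r', hr'pos, hr'r, fun ζ z => (Y s₀ ((s₀⁻¹ : ℂ) * ζ, z)).2, hdiff, ?_,
    hagree, ?_⟩
  · intro ζ hζ z hz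
    have hq := hprod _ _ (hnorm ζ (by simpa using hζ)) (ball_subset_ball hr'ρ hz)
    exact hr₀3 ((((hY _ hq).2 s₀ hs₀m).1).2)
  · intro hder t ht
    -- the generator vanishes at `z₀`
    have hz' : z₀ ∈ ball z₀ r' := mem_ball_self hr'pos
    have h1 : HasDerivWithinAt (fun t : ℝ => (Y s₀ ((s₀⁻¹ : ℂ) * (t : ℂ), z₀)).2) 0
        (Ici 0) 0 := by
      have h2 : HasDerivAt (fun t : ℝ => (Y s₀ ((s₀⁻¹ : ℂ) * (t : ℂ), z₀)).2) 0 (0:ℝ) := by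
        have h3 : HasDerivAt (fun ζ : ℂ => (Y s₀ ((s₀⁻¹ : ℂ) * ζ, z₀)).2) 0 ((0:ℝ):ℂ) := by
          rw [ofReal_zero]; exact hder
        have h4 : HasDerivAt (fun t : ℝ => (t : ℂ)) 1 0 := by
          simpa using (hasDerivAt_id (0:ℝ)).ofReal_comp
        have h5 := HasDerivAt.scomp (h := fun t : ℝ => (t : ℂ)) (0:ℝ) h3 h4
        rwa [smul_zero] at h5
      exact h2.hasDerivWithinAt
    have h2 := hVF z₀ hz₀ 0 ⟨le_rfl, hτ⟩ (by rw [hF00]; exact mem_ball_self hr₁)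
    rw [hF00] at h2
    have h3 : HasDerivWithinAt (fun t : ℝ => (Y s₀ ((s₀⁻¹ : ℂ) * (t : ℂ), z₀)).2) (V z₀)
        (Ici 0) 0 := by
      refine h2.congr_of_eventuallyEq ?_ ?_
      · filter_upwards [Ico_mem_nhdsGE hδpos] with s hs using hagree z₀ hz' s hs
      · exact hagree z₀ hz' 0 ⟨le_rfl, hδpos⟩
    have hV0 : V z₀ = 0 := (uniqueDiffOn_Ici (0:ℝ) 0 self_mem_Ici).eq_deriv _ h3 h1
    obtain ⟨a1, a2, a3⟩ := hreal z₀ hz' t ht
    have h4 := huniq ((s₀⁻¹ : ℂ) * t) _ (fun _ => z₀) a1 a2 a3 continuousOn_const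
      (fun s _ => by
        rw [hV0, smul_zero]
        exact hasDerivWithinAt_const _ _ _) (fun s _ => mem_ball_self hr₀)
      (by rw [mul_zero, hF00])
    have h5 : s₀⁻¹ * t * s₀ = t := by field_simp
    rw [h5] at h4
    exact h4

end Vale.Agent.P253.H567
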