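import Vale.Agent.P253.H567.Def

/-!
P253: the generator of a continuous one-sided local holomorphic flow in a chart.
-/

open scoped Manifold ContDiff Topology
open Set Metric Complex Filter IsManifold Vale.Agent.P253.Mfd MeasureTheory

set_option maxSynthPendingDepth 3
set_option linter.unusedSectionVars false

noncomputable section

namespace Vale.Agent.P253.H567

variable {E : Type*} [NormedAddCommGroup E] [NormedSpace ℂ E] [FiniteDimensional ℂ E]

/-- the derivative of a continuous family of holomorphic maps is continuous in the parameter -/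
theorem continuousOn_fderiv_param {F : ℝ × E → E} {h r : ℝ} {z₀ : E}
    (hc : ContinuousOn F (Icc 0 h ×ˢ ball z₀ r))
    (hol : ∀ t ∈ Icc 0 h, DifferentiableOn ℂ (fun z => F (t, z)) (ball z₀ r)) {z : E}
    (hz : z ∈ ball z₀ r) : ContinuousOn (fun s => fderiv ℂ (fun w => F (s, w)) z) (Icc 0 h) := by
  have : ProperSpace E := FiniteDimensional.proper ℂ E
  have : CompleteSpace E := FiniteDimensional.complete ℂ E
  obtain ⟨R, hR, hball⟩ := nhds_basis_closedBall.mem_iff.1 (isOpen_ball.mem_nhds hz)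
  have hK : IsCompact (Icc 0 h ×ˢ closedBall z R) := isCompact_Icc.prod (isCompact_closedBall z R)
  have hu := hK.uniformContinuousOn_of_continuous (hc.mono (prod_mono Subset.rfl hball))
  rw [Metric.uniformContinuousOn_iff] at hu
  rw [Metric.continuousOn_iff]
  intro s hs ε hε
  obtain ⟨δ, hδ, hd⟩ := hu (ε * R / 2) (by positivity)
  refine ⟨δ, hδ, fun s' hs' hss => ?_⟩
  have hds : DifferentiableAt ℂ (fun w => F (s, w)) z :=
    (hol s hs).differentiableAt (isOpen_ball.mem_nhds hz)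
  have hds' : DifferentiableAt ℂ (fun w => F (s', w)) z :=
    (hol s' hs').differentiableAt (isOpen_ball.mem_nhds hz)
  rw [dist_eq_norm, ← fderiv_fun_sub hds' hds]
  refine lt_of_le_of_lt (ContinuousLinearMap.opNorm_le_bound _
    (M := ε / 2) (by positivity) (fun v => ?_)) (by linarith)
  have h1 := norm_fderiv_apply_le (isOpen_ball (x := z₀) (ε := r))
    ((hol s' hs').fun_sub (hol s hs)) hR hball (B := ε * R / 2) (fun y hy => ?_) v
  · refine h1.trans (le_of_eq ?_)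
    field_simp
  · have h2 := hd (s', y) ⟨hs', hy⟩ (s, y) ⟨hs, hy⟩ (by
      rw [Prod.dist_eq, dist_self, max_lt_iff]
      exact ⟨hss, hδ⟩)
    rw [← dist_eq_norm]
    exact h2.le

/-- the integral of a continuous family of holomorphic maps is holomorphic -/
theorem hasFDerivAt_int {F : ℝ × E → E} {h r : ℝ} {z₀ : E} (hh : 0 ≤ h)
    (hc : ContinuousOn F (Icc 0 h ×ˢ ball z₀ r))
    (hol : ∀ t ∈ Icc 0 h, DifferentiableOn ℂ (fun z => F (t, z)) (ball z₀ r)) {z : E}
    (hz : z ∈ ball z₀ r) :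
    HasFDerivAt (fun w => ∫ s in (0:ℝ)..h, F (s, w))
      (∫ s in (0:ℝ)..h, fderiv ℂ (fun w => F (s, w)) z) z := by
  have : ProperSpace E := FiniteDimensional.proper ℂ E
  have : CompleteSpace E := FiniteDimensional.complete ℂ E
  obtain ⟨R, hR, hball⟩ := nhds_basis_closedBall.mem_iff.1 (isOpen_ball.mem_nhds hz)
  have hK : IsCompact (Icc 0 h ×ˢ closedBall z R) := isCompact_Icc.prod (isCompact_closedBall z R)
  obtain ⟨B, hB⟩ := hK.exists_bound_of_continuousOn (hc.mono (prod_mono Subset.rfl hball))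
  have hB0 : 0 ≤ B := (norm_nonneg _).trans (hB (0, z) ⟨⟨le_rfl, hh⟩, mem_closedBall_self hR.le⟩)
  have huI : uIcc 0 h = Icc 0 h := uIcc_of_le hh
  have hint : ∀ y ∈ ball z₀ r, IntervalIntegrable (fun s => F (s, y)) volume 0 h := by
    intro y hy
    apply ContinuousOn.intervalIntegrable
    rw [huI]
    exact hc.comp (f := fun s => (s, y)) (by fun_prop) (fun s hs => ⟨hs, hy⟩)
  have hintD : IntervalIntegrable (fun s => fderiv ℂ (fun w => F (s, w)) z) volume 0 h := by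
    apply ContinuousOn.intervalIntegrable
    rw [huI]
    exact continuousOn_fderiv_param hc hol hz
  have hintDv : ∀ v : E,
      IntervalIntegrable (fun s => fderiv ℂ (fun w => F (s, w)) z v) volume 0 h := by
    intro v
    apply ContinuousOn.intervalIntegrable
    rw [huI]
    exact (continuousOn_fderiv_param hc hol hz).clm_apply continuousOn_const
  have key : ∀ v : E, ‖v‖ ≤ R / 4 →
      ‖(∫ s in (0:ℝ)..h, F (s, z + v)) - (∫ s in (0:ℝ)..h, F (s, z)) -
        (∫ s in (0:ℝ)..h, fderiv ℂ (fun w => F (s, w)) z) v‖ ≤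
        16 * B / R ^ 2 * ‖v‖ ^ 2 * |h - 0| := by
    intro v hv
    have hzv : z + v ∈ ball z₀ r := hball (by
      rw [mem_closedBall, dist_eq_norm, add_sub_cancel_left]; linarith only [hR, hv])
    rw [ContinuousLinearMap.intervalIntegral_apply hintD,
      ← intervalIntegral.integral_sub (hint _ hzv) (hint _ hz),
      ← intervalIntegral.integral_sub ((hint _ hzv).sub (hint _ hz))
        (hintDv v)]
    refine intervalIntegral.norm_integral_le_of_norm_le_const fun s hs => ?_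
    rw [uIoc_of_le hh] at hs
    have hs' : s ∈ Icc 0 h := ⟨hs.1.le, hs.2⟩
    exact taylor_holo isOpen_ball (hol s hs') hR hball (fun y hy => hB (s, y) ⟨hs', hy⟩) hv
  rw [hasFDerivAt_iff_isLittleO_nhds_zero]
  refine Asymptotics.IsBigO.trans_isLittleO (g := fun h : E => ‖h‖ ^ 2) ?_ ?_
  · refine Asymptotics.IsBigO.of_bound (16 * B / R ^ 2 * |h - 0|) ?_
    filter_upwards [closedBall_mem_nhds (0:E) (show 0 < R / 4 by positivity)] with v hv
    have h1 := key v (by simpa using hv)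
    refine h1.trans (le_of_eq ?_)
    rw [norm_pow, norm_norm]
    ring
  · have h1 : (fun h : E => ‖h‖ ^ 2) =o[𝓝 0] fun h : E => ‖h‖ := by
      have := Asymptotics.isLittleO_norm_pow_id (E' := E) (one_lt_two)
      exact this.norm_right
    exact h1.of_norm_right

/-- the averaged map -/
def Gav (F : ℝ × E → E) (h : ℝ) : E → E := fun w => ∫ s in (0:ℝ)..h, F (s, w)

/-- the generator, in terms of the averaged map -/
def VC (F : ℝ × E → E) (h : ℝ) : E → E := fun z => (fderiv ℂ (Gav F h) z).inverse (F (h, z) - z)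

theorem exists_small_time {F : ℝ × E → E} {τ r : ℝ} {z₀ : E} (hτ : 0 < τ) (hr : 0 < r)
    (hF : ContinuousOn F (Ico 0 τ ×ˢ ball z₀ r)) (h0 : ∀ z ∈ ball z₀ r, F (0, z) = z) :
    ∃ h > 0, 2 * h ≤ τ / 2 ∧
      ∀ s ∈ Icc 0 h, ∀ w ∈ closedBall z₀ (r / 2), ‖F (s, w) - w‖ ≤ r / 8 := by
  have : ProperSpace E := FiniteDimensional.proper ℂ E
  have hcl : closedBall z₀ (r / 2) ⊆ ball z₀ r := closedBall_subset_ball (by linarith)
  have hK : IsCompact (Icc 0 (τ / 2) ×ˢ closedBall z₀ (r / 2)) :=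
    isCompact_Icc.prod (isCompact_closedBall _ _)
  have hKsub : Icc 0 (τ / 2) ×ˢ closedBall z₀ (r / 2) ⊆ Ico 0 τ ×ˢ ball z₀ r :=
    prod_mono (fun s hs => ⟨hs.1, by linarith [hs.2]⟩) hcl
  have hu := hK.uniformContinuousOn_of_continuous (hF.mono hKsub)
  rw [Metric.uniformContinuousOn_iff] at hu
  obtain ⟨δ, hδ, hd⟩ := hu (r / 8) (by positivity)
  have hpos : 0 < min (τ / 4) (δ / 2) := lt_min (by positivity) (by positivity)
  have hhτ : 2 * min (τ / 4) (δ / 2) ≤ τ / 2 := by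
    have := min_le_left (τ / 4) (δ / 2); linarith
  have hhδ : min (τ / 4) (δ / 2) < δ := by have := min_le_right (τ / 4) (δ / 2); linarith
  refine ⟨min (τ / 4) (δ / 2), hpos, hhτ, fun s hs w hw => ?_⟩
  have h1 := hd (s, w) ⟨⟨hs.1, by linarith [hs.2]⟩, hw⟩ (0, w) ⟨⟨le_rfl, by positivity⟩, hw⟩ (by
    rw [Prod.dist_eq, dist_self, max_lt_iff, Real.dist_eq, sub_zero, abs_of_nonneg hs.1]
    exact ⟨by linarith [hs.2], hδ⟩)
  rw [h0 w (hcl hw), dist_eq_norm] at h1
  exact h1.le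

theorem Gav_diff {F : ℝ × E → E} {h r : ℝ} {z₀ : E} (hpos : 0 < h)
    (hFc : ContinuousOn F (Icc 0 h ×ˢ ball z₀ r))
    (hhol : ∀ t ∈ Icc 0 h, DifferentiableOn ℂ (fun z => F (t, z)) (ball z₀ r)) :
    DifferentiableOn ℂ (Gav F h) (ball z₀ r) := fun _ hz =>
  (hasFDerivAt_int hpos.le hFc hhol hz).differentiableAt.differentiableWithinAt

theorem Gav_fderiv {F : ℝ × E → E} {h r : ℝ} {z₀ : E} (hpos : 0 < h) (hr : 0 < r)
    (hFc : ContinuousOn F (Icc 0 h ×ˢ ball z₀ r))
    (hhol : ∀ t ∈ Icc 0 h, DifferentiableOn ℂ (fun z => F (t, z)) (ball z₀ r))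
    (hclose : ∀ s ∈ Icc 0 h, ∀ w ∈ closedBall z₀ (r / 2), ‖F (s, w) - w‖ ≤ r / 8) {z : E}
    (hz : z ∈ ball z₀ (r / 4)) (v : E) :
    ‖fderiv ℂ (Gav F h) z v - (h : ℂ) • v‖ ≤ h / 2 * ‖v‖ := by
  have hCE : CompleteSpace E := FiniteDimensional.complete ℂ E
  have hr4 : ball z₀ (r / 4) ⊆ ball z₀ r := ball_subset_ball (by linarith)
  have hzr := hr4 hz
  have hcl : closedBall z₀ (r / 2) ⊆ ball z₀ r := closedBall_subset_ball (by linarith)
  have hsub : closedBall z (r / 4) ⊆ closedBall z₀ (r / 2) :=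
    closedBall_subset_closedBall' (by rw [mem_ball] at hz; linarith)
  have hcD := continuousOn_fderiv_param hFc hhol hzr
  have hcDv : ContinuousOn (fun s => fderiv ℂ (fun w => F (s, w)) z v) (Icc 0 h) :=
    hcD.clm_apply continuousOn_const
  have hi1 : IntervalIntegrable (fun s => fderiv ℂ (fun w => F (s, w)) z) volume 0 h := by
    apply ContinuousOn.intervalIntegrable
    rwa [uIcc_of_le hpos.le]
  have hi2 : IntervalIntegrable (fun s => fderiv ℂ (fun w => F (s, w)) z v) volume 0 h := by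
    apply ContinuousOn.intervalIntegrable
    rwa [uIcc_of_le hpos.le]
  have e1 : (h : ℂ) • v = ∫ _s in (0:ℝ)..h, v := by
    rw [intervalIntegral.integral_const, sub_zero, Complex.coe_smul]
  have e0 : fderiv ℂ (Gav F h) z = ∫ s in (0:ℝ)..h, fderiv ℂ (fun w => F (s, w)) z :=
    (hasFDerivAt_int hpos.le hFc hhol hzr).fderiv
  rw [e0, ContinuousLinearMap.intervalIntegral_apply hi1, e1,
    ← intervalIntegral.integral_sub hi2 intervalIntegrable_const]
  have h1 : ∀ s ∈ uIoc (0:ℝ) h, ‖fderiv ℂ (fun w => F (s, w)) z v - v‖ ≤ 1 / 2 * ‖v‖ := by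
    intro s hs
    rw [uIoc_of_le hpos.le] at hs
    have hs' : s ∈ Icc 0 h := ⟨hs.1.le, hs.2⟩
    have hds : DifferentiableAt ℂ (fun w => F (s, w)) z :=
      (hhol s hs').differentiableAt (isOpen_ball.mem_nhds hzr)
    have e2 : fderiv ℂ (fun w => F (s, w)) z v - v =
        fderiv ℂ (fun w => F (s, w) - w) z v := by
      have e3 : HasFDerivAt (fun w => F (s, w) - w)
          (fderiv ℂ (fun w => F (s, w)) z - ContinuousLinearMap.id ℂ E) z :=
        hds.hasFDerivAt.sub (hasFDerivAt_id z)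
      rw [e3.fderiv]
      rfl
    rw [e2]
    have h2 := norm_fderiv_apply_le (isOpen_ball (x := z₀) (ε := r))
      ((hhol s hs').fun_sub differentiableOn_id) (z := z) (R := r / 4) (B := r / 8)
      (by positivity) (hsub.trans hcl) (fun y hy => hclose s hs' y (hsub hy)) v
    refine h2.trans (le_of_eq ?_)
    field_simp
    ring
  have h2 := intervalIntegral.norm_integral_le_of_norm_le_const h1
  refine h2.trans (le_of_eq ?_)
  rw [sub_zero, abs_of_pos hpos]
  ring

theorem Gav_equiv {F : ℝ × E → E} {h r : ℝ} {z₀ : E} (hpos : 0 < h) (hr : 0 < r)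
    (hFc : ContinuousOn F (Icc 0 h ×ˢ ball z₀ r))
    (hhol : ∀ t ∈ Icc 0 h, DifferentiableOn ℂ (fun z => F (t, z)) (ball z₀ r))
    (hclose : ∀ s ∈ Icc 0 h, ∀ w ∈ closedBall z₀ (r / 2), ‖F (s, w) - w‖ ≤ r / 8) {z : E}
    (hz : z ∈ ball z₀ (r / 4)) :
    ∃ A : E ≃L[ℂ] E, (A : E →L[ℂ] E) = fderiv ℂ (Gav F h) z := by
  have hinj : Function.Injective (fderiv ℂ (Gav F h) z) := by
    rw [injective_iff_map_eq_zero]
    intro v hv
    have h1 := Gav_fderiv hpos hr hFc hhol hclose hz v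
    rw [hv, zero_sub, norm_neg, norm_smul, norm_real, Real.norm_of_nonneg hpos.le] at h1
    have h2 : ‖v‖ ≤ 0 := by
      by_contra h3
      push Not at h3
      nlinarith [mul_pos hpos h3]
    exact norm_le_zero_iff.1 h2
  refine ⟨(LinearEquiv.ofInjectiveEndo (fderiv ℂ (Gav F h) z : E →ₗ[ℂ] E)
    hinj).toContinuousLinearEquiv, ?_⟩
  ext v
  simp

theorem VC_diff {F : ℝ × E → E} {h r : ℝ} {z₀ : E} (hpos : 0 < h) (hr : 0 < r)
    (hFc : ContinuousOn F (Icc 0 h ×ˢ ball z₀ r))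
    (hhol : ∀ t ∈ Icc 0 h, DifferentiableOn ℂ (fun z => F (t, z)) (ball z₀ r))
    (hclose : ∀ s ∈ Icc 0 h, ∀ w ∈ closedBall z₀ (r / 2), ‖F (s, w) - w‖ ≤ r / 8) :
    DifferentiableOn ℂ (VC F h) (ball z₀ (r / 4)) := by
  have hCE : CompleteSpace E := FiniteDimensional.complete ℂ E
  have hr4 : ball z₀ (r / 4) ⊆ ball z₀ r := ball_subset_ball (by linarith)
  have hGs : ContDiffOn ℂ ∞ (Gav F h) (ball z₀ r) :=
    contDiffOn_of_differentiableOn_complex isOpen_ball (Gav_diff hpos hFc hhol)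
  intro z hz
  apply DifferentiableAt.differentiableWithinAt
  obtain ⟨A, hA⟩ := Gav_equiv hpos hr hFc hhol hclose hz
  have h1 : DifferentiableAt ℂ (fun z => fderiv ℂ (Gav F h) z) z :=
    (((hGs.fderiv_of_isOpen isOpen_ball (m := ∞) (by simp)).contDiffAt
      (isOpen_ball.mem_nhds (hr4 hz))).differentiableAt (by simp))
  have h2 : DifferentiableAt ℂ (ContinuousLinearMap.inverse : (E →L[ℂ] E) → _)
      (fderiv ℂ (Gav F h) z) := by
    rw [← hA]
    exact (contDiffAt_map_inverse (n := 1) A).differentiableAt (by simp)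
  have h3 : DifferentiableAt ℂ (fun z => (fderiv ℂ (Gav F h) z).inverse) z :=
    DifferentiableAt.comp z (g := (ContinuousLinearMap.inverse : (E →L[ℂ] E) → _))
      (f := fun z => fderiv ℂ (Gav F h) z) h2 h1
  have h4 : DifferentiableAt ℂ (fun z => F (h, z) - z) z :=
    (((hhol h ⟨hpos.le, le_rfl⟩).differentiableAt
      (isOpen_ball.mem_nhds (hr4 hz)))).sub differentiableAt_id
  exact h3.clm_apply h4

/-- the time derivative of the integrals along an orbit -/
theorem exists_I {F : ℝ × E → E} {h τ r : ℝ} {z₀ : E} (hpos : 0 < h) (hτ : 0 < τ)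
    (hhτ : 2 * h ≤ τ / 2) (hF : ContinuousOn F (Ico 0 τ ×ˢ ball z₀ r))
    (semi : ∀ z ∈ ball z₀ r, ∀ t ∈ Ico 0 τ, F (t, z) ∈ ball z₀ r →
      ∀ s : ℝ, 0 ≤ s → t + s < τ → F (t + s, z) = F (s, F (t, z))) {z : E} (hzr : z ∈ ball z₀ r)
    (h0 : F (0, z) = z) (hFt : ∀ t ∈ Ico 0 h, F (t, z) ∈ ball z₀ r) :
    ∃ I : ℝ → E, HasDerivAt I (F (h, z) - z) 0 ∧ ∀ t ∈ Ico 0 h, Gav F h (F (t, z)) = I t := by
  have hCE : CompleteSpace E := FiniteDimensional.complete ℂ E
  set f : ℝ → E := fun s => F (max 0 (min s (2 * h)), z) with hf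
  have hfc : Continuous f := by
    have h1 : Continuous (fun s : ℝ => (max 0 (min s (2 * h)), z)) := by fun_prop
    refine hF.comp_continuous h1 fun s => ⟨⟨le_max_left _ _, ?_⟩, hzr⟩
    refine max_lt hτ ?_
    have := min_le_right s (2 * h)
    linarith
  have hfeq : ∀ s ∈ Icc 0 (2 * h), f s = F (s, z) := by
    intro s hs
    simp only [hf, min_eq_left hs.2, max_eq_right hs.1]
  refine ⟨fun t => (∫ s in (0:ℝ)..(t + h), f s) - ∫ s in (0:ℝ)..t, f s, ?_, ?_⟩
  · have h1 : HasDerivAt (fun t => ∫ s in (0:ℝ)..t, f s) (f (0 + h)) (0 + h) :=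
      (hfc.integral_hasStrictDerivAt 0 (0 + h)).hasDerivAt
    have h2 := h1.comp_add_const (0:ℝ) h
    have h3 : HasDerivAt (fun t => ∫ s in (0:ℝ)..t, f s) (f 0) 0 :=
      (hfc.integral_hasStrictDerivAt 0 0).hasDerivAt
    have h4 := h2.sub h3
    rw [zero_add, hfeq h ⟨hpos.le, by linarith⟩, hfeq 0 ⟨le_rfl, by positivity⟩, h0] at h4
    exact h4
  · intro t ht
    have h1 : Gav F h (F (t, z)) = ∫ s in (0:ℝ)..h, f (s + t) := by
      unfold Gav
      apply intervalIntegral.integral_congr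
      intro s hs
      rw [uIcc_of_le hpos.le] at hs
      simp only
      rw [hfeq (s + t) ⟨by linarith [hs.1, ht.1], by linarith [hs.2, ht.2]⟩, add_comm s t]
      exact (semi z hzr t ⟨ht.1, by linarith [ht.2]⟩ (hFt t ht) s hs.1
        (by linarith [hs.2, ht.2])).symm
    rw [h1, intervalIntegral.integral_comp_add_right, zero_add, add_comm h t]
    simp only
    rw [intervalIntegral.integral_interval_sub_left (hfc.intervalIntegrable _ _)
      (hfc.intervalIntegrable _ _)]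

theorem hasDerivWithinAt_of_localInverse {G : E → E} {A : E ≃L[ℂ] E} {z : E}
    (hG : HasStrictFDerivAt G (A : E →L[ℂ] E) z) {φ : ℝ → E} {w : E} (h0 : φ 0 = z)
    (hφ : ContinuousWithinAt φ (Ici 0) 0)
    (hI : HasDerivWithinAt (fun t => G (φ t)) w (Ici 0) 0) :
    HasDerivWithinAt φ (A.symm w) (Ici 0) 0 := by
  have hCE : CompleteSpace E := FiniteDimensional.complete ℂ E
  have hleft := hG.eventually_left_inverse
  have hinv := hG.to_localInverse.hasFDerivAt
  set g := hG.localInverse G A z with hg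
  have hinv' : HasFDerivAt g (((A.symm : E ≃L[ℂ] E) : E →L[ℂ] E).restrictScalars ℝ)
      (G (φ 0)) := by
    rw [h0]
    exact hinv.restrictScalars ℝ
  have h1 : HasDerivWithinAt (fun t => g (G (φ t))) (A.symm w) (Ici 0) 0 :=
    HasFDerivAt.comp_hasDerivWithinAt (f := fun t => G (φ t)) (l := g)
      (l' := ((A.symm : E ≃L[ℂ] E) : E →L[ℂ] E).restrictScalars ℝ) (0:ℝ) hinv' hI
  have hφ' : Tendsto φ (𝓝[≥] 0) (𝓝 z) := by
    have h3 : Tendsto φ (𝓝[≥] 0) (𝓝 (φ 0)) := hφ
    rwa [h0] at h3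
  refine h1.congr_of_eventuallyEq ?_ ?_
  · filter_upwards [hφ'.eventually hleft] with t ht using ht.symm
  · rw [h0]
    exact hleft.self_of_nhds.symm

theorem VC_time {F : ℝ × E → E} {h τ r : ℝ} {z₀ : E} (hpos : 0 < h) (hτ : 0 < τ) (hr : 0 < r)
    (hhτ : 2 * h ≤ τ / 2) (hF : ContinuousOn F (Ico 0 τ ×ˢ ball z₀ r))
    (h0 : ∀ z ∈ ball z₀ r, F (0, z) = z)
    (hhol : ∀ t ∈ Icc 0 h, DifferentiableOn ℂ (fun z => F (t, z)) (ball z₀ r))
    (semi : ∀ z ∈ ball z₀ r, ∀ t ∈ Ico 0 τ, F (t, z) ∈ ball z₀ r →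
      ∀ s : ℝ, 0 ≤ s → t + s < τ → F (t + s, z) = F (s, F (t, z)))
    (hclose : ∀ s ∈ Icc 0 h, ∀ w ∈ closedBall z₀ (r / 2), ‖F (s, w) - w‖ ≤ r / 8) {z : E}
    (hz : z ∈ ball z₀ (r / 4)) :
    HasDerivWithinAt (fun s => F (s, z)) (VC F h z) (Ici 0) 0 := by
  have hCE : CompleteSpace E := FiniteDimensional.complete ℂ E
  have hr4 : ball z₀ (r / 4) ⊆ ball z₀ r := ball_subset_ball (by linarith)
  have hIcc : ∀ s ∈ Icc 0 h, s ∈ Ico 0 τ := fun s hs => ⟨hs.1, by linarith [hs.2]⟩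
  have hFc : ContinuousOn F (Icc 0 h ×ˢ ball z₀ r) := hF.mono (prod_mono hIcc Subset.rfl)
  have hGs : ContDiffOn ℂ ∞ (Gav F h) (ball z₀ r) :=
    contDiffOn_of_differentiableOn_complex isOpen_ball (Gav_diff hpos hFc hhol)
  have hzr := hr4 hz
  have hz2 : z ∈ closedBall z₀ (r / 2) := by
    rw [mem_closedBall]; rw [mem_ball] at hz; linarith
  obtain ⟨A, hA⟩ := Gav_equiv hpos hr hFc hhol hclose hz
  have hFt : ∀ t ∈ Ico 0 h, F (t, z) ∈ ball z₀ r := by
    intro t ht
    have h1 := hclose t ⟨ht.1, ht.2.le⟩ z hz2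
    rw [mem_ball] at hz ⊢
    calc dist (F (t, z)) z₀ ≤ dist (F (t, z)) z + dist z z₀ := dist_triangle _ _ _
      _ < r := by rw [dist_eq_norm]; linarith
  obtain ⟨I, hId, hGI⟩ := exists_I hpos hτ hhτ hF semi hzr (h0 z hzr) hFt
  have hstrict : HasStrictFDerivAt (Gav F h) (A : E →L[ℂ] E) z := by
    rw [hA]
    exact ((hGs.contDiffAt (isOpen_ball.mem_nhds hzr)).hasStrictFDerivAt (by simp))
  have hFz : ContinuousWithinAt (fun t : ℝ => F (t, z)) (Ici 0) 0 := by
    have h2 : ContinuousOn (fun t : ℝ => F (t, z)) (Ico 0 τ) :=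
      hF.comp (f := fun t => (t, z)) (by fun_prop) (fun s hs => ⟨hs, hzr⟩)
    have h1 : ContinuousWithinAt (fun t : ℝ => F (t, z)) (Ico 0 τ) 0 := h2 0 ⟨le_rfl, hτ⟩
    exact h1.mono_of_mem_nhdsWithin (Ico_mem_nhdsGE hτ)
  have hGd : HasDerivWithinAt (fun t => Gav F h (F (t, z))) (F (h, z) - z) (Ici 0) 0 := by
    refine hId.hasDerivWithinAt.congr_of_eventuallyEq ?_ (hGI 0 ⟨le_rfl, hpos⟩)
    filter_upwards [Ico_mem_nhdsGE hpos] with t ht using hGI t ht
  have hVz : VC F h z = A.symm (F (h, z) - z) := by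
    unfold VC
    rw [← hA, ContinuousLinearMap.inverse_equiv]
    rfl
  rw [hVz]
  exact hasDerivWithinAt_of_localInverse hstrict (φ := fun t => F (t, z)) (h0 z hzr) hFz hGd

/-- the generator of a continuous one-sided local holomorphic flow exists and is holomorphic -/
theorem exists_genC {F : ℝ × E → E} {τ r : ℝ} {z₀ : E} (hτ : 0 < τ) (hr : 0 < r)
    (hF : ContinuousOn F (Ico 0 τ ×ˢ ball z₀ r)) (h0 : ∀ z ∈ ball z₀ r, F (0, z) = z)
    (hol : ∀ t ∈ Ico 0 τ, DifferentiableOn ℂ (fun z => F (t, z)) (ball z₀ r))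
    (semi : ∀ z ∈ ball z₀ r, ∀ t ∈ Ico 0 τ, F (t, z) ∈ ball z₀ r →
      ∀ s : ℝ, 0 ≤ s → t + s < τ → F (t + s, z) = F (s, F (t, z))) :
    ∃ r' > 0, r' ≤ r ∧ ∃ V : E → E, DifferentiableOn ℂ V (ball z₀ r') ∧
      ∀ z ∈ ball z₀ r, ∀ t ∈ Ico 0 τ, F (t, z) ∈ ball z₀ r' →
        HasDerivWithinAt (fun s => F (s, z)) (V (F (t, z))) (Ici t) t := by
  obtain ⟨h, hpos, hhτ, hclose⟩ := exists_small_time hτ hr hF h0
  have hIcc : ∀ s ∈ Icc 0 h, s ∈ Ico 0 τ := fun s hs => ⟨hs.1, by linarith [hs.2]⟩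
  have hFc : ContinuousOn F (Icc 0 h ×ˢ ball z₀ r) := hF.mono (prod_mono hIcc Subset.rfl)
  have hhol : ∀ t ∈ Icc 0 h, DifferentiableOn ℂ (fun z => F (t, z)) (ball z₀ r) :=
    fun t ht => hol t (hIcc t ht)
  have hr4 : ball z₀ (r / 4) ⊆ ball z₀ r := ball_subset_ball (by linarith)
  refine ⟨r / 4, by positivity, by linarith, VC F h, VC_diff hpos hr hFc hhol hclose,
    fun z hz t ht htz => ?_⟩
  have h1 := VC_time hpos hτ hr hhτ hF h0 hhol semi hclose htz
  have h2 : HasDerivWithinAt (fun s : ℝ => s - t) 1 (Ici t) t :=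
    ((hasDerivAt_id t).sub_const t).hasDerivWithinAt
  have h1' : HasDerivWithinAt (fun s => F (s, F (t, z))) (VC F h (F (t, z))) (Ici 0) (t - t) := by
    rwa [sub_self]
  have h3 := HasDerivWithinAt.scomp (h := fun s : ℝ => s - t) t h1' h2
    (fun s hs => by simpa using hs)
  rw [one_smul] at h3
  refine h3.congr_of_eventuallyEq ?_ ?_
  · have h4 : Tendsto (fun s : ℝ => s - t) (𝓝[≥] t) (𝓝[≥] 0) := by
      refine tendsto_nhdsWithin_of_tendsto_nhds_of_eventually_within _ ?_ ?_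
      · have h5 : Continuous (fun s : ℝ => s - t) := by fun_prop
        have h6 := h5.tendsto t
        rw [sub_self] at h6
        exact h6.mono_left nhdsWithin_le_nhds
      · filter_upwards [self_mem_nhdsWithin] with s hs
        simpa using hs
    have h5 : ∀ᶠ s : ℝ in 𝓝[≥] 0, F (t + s, z) = F (s, F (t, z)) := by
      have h6 : 0 < τ - t := by linarith [ht.2]
      filter_upwards [Ico_mem_nhdsGE h6] with s hs
      exact semi z hz t ht (hr4 htz) s hs.1 (by linarith [hs.2])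
    filter_upwards [h4.eventually h5] with s hs
    simp only [Function.comp_apply]
    rw [← hs]
    congr 2
    ring
  · simp only [Function.comp_apply, sub_self]
    rw [h0 _ (hr4 htz)]

end Vale.Agent.P253.H567
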