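import Vale.Agent.P253.H567.Flow
import Vale.Agent.P253.H595.Star

/-!
P253: the local complex-time flow of a holomorphic semigroup.
-/

open scoped Manifold ContDiff Topology
open Set Metric Complex Filter IsManifold Vale.Agent.P253.Mfd Vale.Agent.P253.R2.H156

set_option maxSynthPendingDepth 3
set_option linter.unusedSectionVars false

noncomputable section

namespace Vale.Agent.P253.H567

variable {E : Type*} [NormedAddCommGroup E] [NormedSpace ℂ E] [FiniteDimensional ℂ E]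
  {M : Type*} [MetricSpace M] [ChartedSpace E M]
  [IsManifold 𝓘(ℂ, E) 1 M] [IsManifold 𝓘(ℝ, E) ∞ M]
  {ρ : ℝ → M → M}

/-- the real translations tend to the point in the punctured neighbourhood -/
theorem tendsto_real (c : ℂ) : Tendsto (fun s : ℝ => c + s) (𝓝[>] 0) (𝓝[≠] c) := by
  refine tendsto_nhdsWithin_of_tendsto_nhds_of_eventually_within _ ?_ ?_
  · have h2 : Continuous (fun s : ℝ => c + s) := by fun_prop
    have h3 := h2.tendsto 0
    simp only [ofReal_zero, add_zero] at h3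
    exact h3.mono_left nhdsWithin_le_nhds
  · filter_upwards [self_mem_nhdsWithin] with s hs
    simpa using (ne_of_gt hs)

/-- propagation of the semigroup equation -/
theorem flow_of_convex (hρ : IsHolSemigroup E ρ) {D : Set ℂ} (hD : IsOpen D) (hDc : Convex ℝ D)
    {f : ℂ → M} (hf : ∀ ζ ∈ D, MDifferentiableAt 𝓘(ℂ, ℂ) 𝓘(ℂ, E) f ζ) {c ζ : ℂ} (hc : c ∈ D)
    (hζ : ζ ∈ D) {δ : ℝ} (hδ : 0 < δ) (h : ∀ t : ℝ, 0 ≤ t → t < δ → f (c + t) = ρ t (f c)) :
    ∀ᶠ t : ℝ in 𝓝[>] 0, f (ζ + t) = ρ t (f ζ) := by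
  have hcs : IsCompact (segment ℝ c ζ) := by
    rw [segment_eq_image_lineMap]
    exact isCompact_Icc.image (AffineMap.lineMap_continuous)
  obtain ⟨η, hη, hηD⟩ := hcs.exists_thickening_subset_open hD (hDc.segment_subset hc hζ)
  have hpos : 0 < min η δ / 2 := by positivity
  filter_upwards [Ioo_mem_nhdsGT hpos] with t ht
  have ht1 : t < η / 2 := ht.2.trans_le (by have := min_le_left η δ; linarith)
  have ht2 : t < δ / 2 := ht.2.trans_le (by have := min_le_right η δ; linarith)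
  set N : Set ℂ := thickening (η / 2) (segment ℝ c ζ) with hN
  have hNo : IsOpen N := isOpen_thickening
  have hNc : Convex ℝ N := (convex_segment c ζ).thickening _
  have hsub : segment ℝ c ζ ⊆ N := self_subset_thickening (by positivity) _
  have hcN : c ∈ N := hsub (left_mem_segment ℝ _ _)
  have hζN : ζ ∈ N := hsub (right_mem_segment ℝ _ _)
  have hND : ∀ w ∈ N, w ∈ D ∧ w + t ∈ D := by
    intro w hw
    rw [hN, mem_thickening_iff] at hw
    obtain ⟨z, hz, hwz⟩ := hw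
    refine ⟨hηD (mem_thickening_iff.2 ⟨z, hz, hwz.trans (by linarith)⟩),
      hηD (mem_thickening_iff.2 ⟨z, hz, ?_⟩)⟩
    calc dist (w + t) z ≤ dist (w + t) w + dist w z := dist_triangle _ _ _
      _ < η := by
        have : dist (w + t) w = t := by
          rw [dist_eq_norm, add_sub_cancel_left, norm_real, Real.norm_eq_abs, abs_of_pos ht.1]
        linarith
  refine eqOn_of_frequently (E := E) hNo hNc.isPreconnected (f := fun w => f (w + t))
    (g := fun w => ρ t (f w)) ?_ ?_ hcN ?_ hζN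
  · intro w hw
    have h1 : MDifferentiableAt 𝓘(ℂ, ℂ) 𝓘(ℂ, ℂ) (fun ζ : ℂ => ζ + t) w :=
      (differentiableAt_id.add_const (t : ℂ)).mdifferentiableAt
    exact (hf _ (hND w hw).2).comp w h1
  · intro w hw
    exact (hρ.holo t ht.1.le (f w)).comp w (hf w (hND w hw).1)
  · refine (tendsto_real c).frequently (Eventually.frequently ?_)
    have h2 : 0 < δ / 2 := by positivity
    filter_upwards [Ioo_mem_nhdsGT h2] with s hs
    rw [add_assoc, ← ofReal_add, h (s + t) (by linarith [hs.1, ht.1]) (by linarith [hs.2]),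
      h s hs.1.le (by linarith [hs.2]), add_comm s t, hρ.add t s _ ht.1.le hs.1.le]

/-- local complex-time flow of a holomorphic semigroup -/
theorem exists_local (hρ : IsHolSemigroup E ρ) (x₀ : M) :
    ∃ δ > 0, ∃ U : Set M, IsOpen U ∧ x₀ ∈ U ∧ ∃ H : ℂ → M → M,
      (∀ x ∈ U, H 0 x = x) ∧ (∀ x ∈ U, ∀ t : ℝ, 0 ≤ t → t < δ → H t x = ρ t x) ∧
      ∀ x ∈ U, ∀ ζ ∈ ball (0:ℂ) δ,
        MDifferentiableAt (𝓘(ℂ, ℂ).prod 𝓘(ℂ, E)) 𝓘(ℂ, E) (fun q : ℂ × M => H q.1 q.2) (ζ, x) := by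
  have he : chartAt E x₀ ∈ maximalAtlas 𝓘(ℂ, E) 1 M := chart_mem_maximalAtlas x₀
  set e := chartAt E x₀ with hedef
  have her := mem_maximalAtlas_real he
  have hx₀ : x₀ ∈ e.source := mem_chart_source E x₀
  set z₀ := e x₀ with hz₀
  have hz₀t : z₀ ∈ e.target := e.map_source hx₀
  -- a small product
  set S₀ : Set (ℝ × E) := {q | 0 ≤ q.1 ∧ q.2 ∈ e.target} with hS₀
  have hcont : ContinuousOn (fun q : ℝ × E => ρ q.1 (e.symm q.2)) S₀ := by
    have h1 : ContinuousOn (fun q : ℝ × E => (q.1, e.symm q.2)) S₀ :=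
      continuousOn_fst.prodMk (e.continuousOn_symm.comp continuousOn_snd (fun q hq => hq.2))
    exact hρ.cont.comp h1 (fun q hq => hq.1)
  have hev : ∀ᶠ q in 𝓝[S₀] ((0:ℝ), z₀), ρ q.1 (e.symm q.2) ∈ e.source := by
    refine (hcont ((0:ℝ), z₀) ⟨le_rfl, hz₀t⟩).preimage_mem_nhdsWithin (t := e.source) ?_
    simp only [hρ.zero, hz₀, e.left_inv hx₀]
    exact e.open_source.mem_nhds hx₀
  obtain ⟨r₁, hr₁, hin⟩ := Metric.mem_nhdsWithin_iff.1 hev
  obtain ⟨r₂, hr₂, hr₂t⟩ := Metric.mem_nhds_iff.1 (e.open_target.mem_nhds hz₀t)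
  set r : ℝ := min r₁ r₂ with hr
  have hrpos : 0 < r := lt_min hr₁ hr₂
  have hbt : ball z₀ r ⊆ e.target := (ball_subset_ball (min_le_right _ _)).trans hr₂t
  have hsrc : ∀ t ∈ Ico 0 r, ∀ z ∈ ball z₀ r, ρ t (e.symm z) ∈ e.source := by
    intro t ht z hz
    have h1 : ((t, z) : ℝ × E) ∈ ball ((0:ℝ), z₀) r₁ ∩ S₀ := by
      refine ⟨?_, ht.1, hbt hz⟩
      rw [Metric.mem_ball, Prod.dist_eq, max_lt_iff]
      refine ⟨?_, (ball_subset_ball (min_le_left _ _) hz : z ∈ ball z₀ r₁)⟩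
      rw [Real.dist_eq, sub_zero, abs_of_nonneg ht.1]
      exact ht.2.trans_le (min_le_left _ _)
    exact hin h1
  have hF : ContinuousOn (HF ρ e e) (Ico 0 r ×ˢ ball z₀ r) :=
    e.continuousOn.comp (hcont.mono fun q hq => ⟨hq.1.1, hbt hq.2⟩)
      (fun q hq => hsrc q.1 hq.1 q.2 hq.2)
  have h0 : ∀ z ∈ ball z₀ r, HF ρ e e (0, z) = z := by
    intro z hz
    simp only [HF, hρ.zero]
    exact e.right_inv (hbt hz)
  have hol : ∀ t ∈ Ico 0 r, DifferentiableOn ℂ (fun z => HF ρ e e (t, z)) (ball z₀ r) := by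
    intro t ht z hz
    have h3 : MDifferentiableAt 𝓘(ℂ, E) 𝓘(ℂ, E) e (ρ t (e.symm z)) :=
      mdiff_chart he (hsrc t ht z hz)
    have h4 := h3.comp z ((hρ.holo t ht.1 _).comp z (mdiff_chart_symm he (hbt hz)))
    exact h4.differentiableAt.differentiableWithinAt
  have semi : ∀ z ∈ ball z₀ r, ∀ t ∈ Ico 0 r, HF ρ e e (t, z) ∈ ball z₀ r →
      ∀ s : ℝ, 0 ≤ s → t + s < r → HF ρ e e (t + s, z) = HF ρ e e (s, HF ρ e e (t, z)) := by
    intro z hz t ht _ s hs _
    simp only [HF]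
    rw [e.left_inv (hsrc t ht z hz), add_comm t s, hρ.add s t _ hs ht.1]
  obtain ⟨δ, hδ, hδr, r', hr', hr'r, Hc, hHd, hHm, hHr, -⟩ :=
    exists_cflow hrpos hrpos hF h0 hol semi
  set V : Set M := e.source ∩ e ⁻¹' (ball z₀ r') with hV
  have hVo : IsOpen V := e.continuousOn.isOpen_inter_preimage e.open_source isOpen_ball
  have hreal : ∀ x ∈ V, ∀ t : ℝ, 0 ≤ t → t < δ → e.symm (Hc t (e x)) = ρ t x := by
    intro x hx t h1 h2
    rw [hHr (e x) hx.2 t ⟨h1, h2⟩]
    simp only [HF, e.left_inv hx.1]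
    refine e.left_inv ?_
    have := hsrc t ⟨h1, h2.trans_le hδr⟩ (e x) (ball_subset_ball hr'r hx.2)
    rwa [e.left_inv hx.1] at this
  refine ⟨δ, hδ, V, hVo, ⟨hx₀, mem_ball_self hr'⟩, fun ζ x => e.symm (Hc ζ (e x)), ?_, hreal, ?_⟩
  · intro x hx
    have h1 := hreal x hx 0 le_rfl hδ
    rw [ofReal_zero, hρ.zero] at h1
    exact h1
  · intro x hx ζ hζ
    have hopen : IsOpen ((ball (0:ℂ) δ) ×ˢ ball z₀ r') := isOpen_ball.prod isOpen_ball
    have h1 : MDifferentiableAt 𝓘(ℂ, E) 𝓘(ℂ, E) e x := mdiff_chart he hx.1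
    have h2 : MDifferentiableAt (𝓘(ℂ, ℂ).prod 𝓘(ℂ, E)) 𝓘(ℂ, ℂ × E)
        (fun q : ℂ × M => (q.1, e q.2)) (ζ, x) :=
      mdifferentiableAt_fst.prodMk_space
        (MDifferentiableAt.comp (ζ, x) (f := Prod.snd) (g := e) h1 mdifferentiableAt_snd)
    have h3 : MDifferentiableAt 𝓘(ℂ, ℂ × E) 𝓘(ℂ, E) (fun q : ℂ × E => Hc q.1 q.2) (ζ, e x) :=
      ((hHd (ζ, e x) ⟨hζ, hx.2⟩).differentiableAt
        (hopen.mem_nhds ⟨hζ, hx.2⟩)).mdifferentiableAt
    have h4 : MDifferentiableAt 𝓘(ℂ, E) 𝓘(ℂ, E) e.symm (Hc ζ (e x)) :=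
      mdiff_chart_symm he (hbt (hHm ζ hζ (e x) hx.2))
    exact MDifferentiableAt.comp (ζ, x) (g := e.symm) (f := fun q : ℂ × M => Hc q.1 (e q.2)) h4
      (MDifferentiableAt.comp (ζ, x) (g := fun q : ℂ × E => Hc q.1 q.2)
        (f := fun q : ℂ × M => (q.1, e q.2)) h3 h2)

/-- the complex-time orbits of a holomorphic semigroup have a local flow -/
theorem locFlow (hρ : IsHolSemigroup E ρ) : H595.LocFlow E (Orb E ρ) where
  mdiff h := h.1.self_of_nhds
  congr := by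
    intro f g ζ hf hg
    refine ⟨?_, ?_⟩
    · filter_upwards [hf.1, hg.eventuallyEq_nhds] with w h1 h2
      exact h1.congr_of_eventuallyEq h2
    · filter_upwards [hf.2, hg.eventuallyEq_nhds] with w h1 h2
      have h3 : ∀ᶠ t : ℝ in 𝓝[>] 0, g (w + t) = f (w + t) :=
        (tendsto_real w).eventually (h2.filter_mono nhdsWithin_le_nhds)
      filter_upwards [h1, h3] with t h4 h5
      rw [h5, h4, h2.self_of_nhds]
  shift := by
    intro f ζ c hf
    have hc : Tendsto (fun w : ℂ => w + c) (𝓝 ζ) (𝓝 (ζ + c)) := by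
      have : Continuous (fun w : ℂ => w + c) := by fun_prop
      exact this.tendsto ζ
    refine ⟨?_, ?_⟩
    · filter_upwards [hc.eventually hf.1] with w h1
      have h2 : MDifferentiableAt 𝓘(ℂ, ℂ) 𝓘(ℂ, ℂ) (fun ζ : ℂ => ζ + c) w :=
        (differentiableAt_id.add_const c).mdifferentiableAt
      exact h1.comp w h2
    · filter_upwards [hc.eventually hf.2] with w h1
      filter_upwards [h1] with t h2
      rw [← h2]
      congr 1
      ring
  loc := by
    intro x₀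
    obtain ⟨δ, hδ, U, hU, hx₀, H, hH0, hHr, hHd⟩ := exists_local hρ x₀
    refine ⟨δ, hδ, U, hU, hx₀, H, hH0, fun x hx ζ hζ => ?_, hHd⟩
    have hd : ∀ w ∈ ball (0:ℂ) δ, MDifferentiableAt 𝓘(ℂ, ℂ) 𝓘(ℂ, E) (fun w => H w x) w := by
      intro w hw
      have h2 : MDifferentiableAt 𝓘(ℂ, ℂ) (𝓘(ℂ, ℂ).prod 𝓘(ℂ, E)) (fun ζ : ℂ => (ζ, x)) w :=
        mdifferentiableAt_id.prodMk mdifferentiableAt_const
      exact MDifferentiableAt.comp w (g := fun q : ℂ × M => H q.1 q.2) (f := fun ζ : ℂ => (ζ, x))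
        (hHd x hx w hw) h2
    refine ⟨?_, ?_⟩
    · filter_upwards [isOpen_ball.mem_nhds hζ] with w hw using hd w hw
    · filter_upwards [isOpen_ball.mem_nhds hζ] with w hw
      refine flow_of_convex hρ isOpen_ball (convex_ball _ _) hd (mem_ball_self hδ) hw hδ ?_
      intro t h1 h2
      rw [zero_add, hHr x hx t h1 h2, hH0 x hx]
  uniq := by
    intro f g c hf hg hc
    refine eventuallyEq_of_frequently (E := E) (hf.self_of_nhds.1) (hg.self_of_nhds.1) ?_
    refine (tendsto_real c).frequently (Eventually.frequently ?_)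
    filter_upwards [hf.self_of_nhds.2.self_of_nhds, hg.self_of_nhds.2.self_of_nhds] with t h1 h2
    rw [h1, h2, hc]

end Vale.Agent.P253.H567
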