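import Vale.Agent.P253.H567.Real
import Vale.Agent.P253.H595.Glob
import Vale.Agent.P253.R2.H445.All

/-!
P253: one-parameter semigroups of holomorphic self-maps of a complete Kähler manifold of
nonnegative bisectional curvature extend to holomorphic actions of `ℂ`.
-/

open scoped Manifold ContDiff Topology Bundle
open Set Metric Complex Filter Bundle IsManifold Manifold Vale.Agent.P253.Mfd
  Vale.Agent.P253.CStar

set_option maxSynthPendingDepth 3
set_option linter.unusedSectionVars false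

noncomputable section

namespace Vale.Agent.P253.H567

open Vale.Agent.P253.R2

variable {E : Type*} [NormedAddCommGroup E] [NormedSpace ℂ E] [FiniteDimensional ℂ E]
  {M : Type*} [MetricSpace M] [ChartedSpace E M] [IsManifold 𝓘(ℂ, E) 1 M]
  [IsManifold 𝓘(ℝ, E) ∞ M] {ρ : ℝ → M → M}

variable (E M) in
/-- the extension property for semigroups of holomorphic self-maps -/
def HasSExt : Prop :=
  ∀ ρ : ℝ → M → M, IsHolSemigroup E ρ →
    ∃ ψ : ℂ → M → M, R2.IsHolCFlow E ψ ∧ ∀ t : ℝ, 0 ≤ t → ∀ x, ψ t x = ρ t x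

theorem hasSExt (hKP : H156.KP E M)
    (hL : ∀ u : M → EReal, UpperSemicontinuous u → (∀ x, u x ≤ 0) → H156.NoTouch E u →
      ∃ C, ∀ x, u x = C) : HasSExt E M := by
  intro ρ hρ
  obtain ⟨-, h0, hadd, hh⟩ := H595.complete hKP hL (locFlow hρ)
    (fun x t ht => real_mem_DF hρ ht.1 x)
  exact ⟨H595.FF (Orb E ρ), ⟨h0, hadd, hh⟩, fun t ht x => FF_real hρ ht x⟩

/-- a holomorphic action of `ℂ` is determined by its positive real times -/
theorem eq_of_nonneg {ψ φ : ℂ → M → M} (hψ : R2.IsHolCFlow E ψ) (hφ : R2.IsHolCFlow E φ)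
    (h : ∀ t : ℝ, 0 ≤ t → ∀ x, ψ t x = φ t x) : ψ = φ := by
  funext ζ x
  have hd : ∀ {χ : ℂ → M → M}, R2.IsHolCFlow E χ → ∀ w : ℂ,
      MDifferentiableAt 𝓘(ℂ, ℂ) 𝓘(ℂ, E) (fun w => χ w x) w := by
    intro χ hχ w
    have h2 : ContMDiff 𝓘(ℂ, ℂ) 𝓘(ℂ, E) 1 (fun ζ => χ ζ x) :=
      hχ.holo.comp (contMDiff_id.prodMk contMDiff_const)
    exact h2.mdifferentiable (by simp) w
  refine H156.eqOn_of_frequently (E := E) isOpen_univ isPreconnected_univ (f := fun w => ψ w x)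
    (g := fun w => φ w x) (fun w _ => hd hψ w) (fun w _ => hd hφ w) (mem_univ (0:ℂ)) ?_
    (mem_univ ζ)
  refine (tendsto_real 0).frequently (Eventually.frequently ?_)
  filter_upwards [self_mem_nhdsWithin] with s hs
  rw [zero_add]
  exact h s (le_of_lt hs) x

variable [RiemannianBundle (fun x : M => TangentSpace 𝓘(ℝ, E) x)]
  [IsContMDiffRiemannianBundle 𝓘(ℝ, E) ∞ E (fun x : M => TangentSpace 𝓘(ℝ, E) x)]
  [IsRiemannianManifold 𝓘(ℝ, E) M]

/-- every one-parameter semigroup of holomorphic self-maps extends to an action of `ℂ` -/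
theorem hasSExt_of_nonneg [CompleteSpace M] [ConnectedSpace M] (hK : IsKahler E M)
    (hnn : ∀ x : M, NonnegBisectionalAt E x) : HasSExt E M :=
  hasSExt (H451.kp_prop hK hnn) (H618.liouville_noTouch hK hnn)

theorem existsUnique_of_nonneg [CompleteSpace M] [ConnectedSpace M] (hK : IsKahler E M)
    (hnn : ∀ x : M, NonnegBisectionalAt E x) (hρ : IsHolSemigroup E ρ) :
    ∃! ψ : ℂ → M → M, R2.IsHolCFlow E ψ ∧ ∀ t : ℝ, 0 ≤ t → ∀ x, ψ t x = ρ t x := by
  obtain ⟨ψ, h1, h2⟩ := hasSExt_of_nonneg hK hnn ρ hρ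
  exact ⟨ψ, ⟨h1, h2⟩, fun φ hφ => eq_of_nonneg hφ.1 h1 fun t ht x => by rw [hφ.2 t ht, h2 t ht]⟩

end Vale.Agent.P253.H567
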