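import Vale.Agent.P253.H595.Semi
import Vale.Agent.P253.H565.FunAttr

/-!
P253: uniformization from a one-parameter semigroup with a fixed point whose differentials are
`diag (exp (c m_j t))`, `c ≠ 0` a complex number, when the holomorphic functions of the manifold
give coordinates at this point (no curvature condition at the point).
-/

open scoped Manifold ContDiff Topology Bundle
open Set Metric Complex Filter IsManifold Bundle Manifold Vale.Agent.P253.Mfd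
  Vale.Agent.P253.CStar

set_option maxSynthPendingDepth 3
set_option linter.unusedSectionVars false

noncomputable section

namespace Vale.Agent.P253.H567

open Vale.Agent.P253.R2 Vale.Agent.P253.H595

variable {E : Type*} [NormedAddCommGroup E] [NormedSpace ℂ E] [FiniteDimensional ℂ E]
  {M : Type*} [MetricSpace M] [ChartedSpace E M] [IsManifold 𝓘(ℂ, E) 1 M]
  {ρ : ℝ → M → M} {ψ : ℂ → M → M} {p : M}

variable [IsManifold 𝓘(ℝ, E) ∞ M]
  [RiemannianBundle (fun x : M => TangentSpace 𝓘(ℝ, E) x)]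
  [IsContMDiffRiemannianBundle 𝓘(ℝ, E) ∞ E (fun x : M => TangentSpace 𝓘(ℝ, E) x)]
  [IsRiemannianManifold 𝓘(ℝ, E) M]

/-- uniformization from a semigroup with a radial fixed point at which the holomorphic functions
of the manifold give coordinates -/
theorem main_radial_coord [CompleteSpace M] [ConnectedSpace M] (hψ : IsHolCFlow E ψ)
    (he : ∀ t : ℝ, 0 ≤ t → ∀ x, ψ t x = ρ t x) (hp : IsRadialFixedPoint E ρ p)
    (hf : H565.HasGlobalCoordinatesAt E p) :
    ∃ F : M ≃ₘ^1⟮𝓘(ℂ, E), 𝓘(ℂ, E)⟯ E, F p = 0 ∧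
      (∀ v : E, (mfderiv 𝓘(ℂ, E) 𝓘(ℂ, E) F p : E → E) v = v) ∧
      ∀ t : ℝ, 0 ≤ t → ∀ x : M, F (ρ t x) =
        (mfderiv 𝓘(ℂ, E) 𝓘(ℂ, E) (ρ t) p : E → E) (F x) := by
  have hCE : CompleteSpace E := FiniteDimensional.complete ℂ E
  obtain ⟨hfix, c, hc, b, m, hm, hpinch, hw⟩ := hp
  have hfixψ : ∀ ζ, ψ ζ p = p := S445.fixed_pos hψ (fun t ht => by rw [he t ht, hfix t ht])
  have hρ : ∀ t : ℝ, 0 ≤ t → ψ t = ρ t := fun t ht => funext fun x => he t ht x
  have hlin : ∀ j, linPart (gen (E := E) ψ) p (b j) = (c * m j) • b j := by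
    intro j
    refine linPart_gen_of_pos hψ hfixψ fun t ht => ?_
    rw [hρ t ht]
    exact hw t ht j
  have hint := gen_int (E := E) hψ
  have hattr : S445.IsAttrFixedPoint E (fun t x => ψ (-c⁻¹ * t) x) p := by
    refine ⟨fun t _ => hfixψ _, b, m, hm, hpinch, fun t _ j => ?_⟩
    have h1 := mfderiv_eigen hψ hint hfixψ (hlin j) (-c⁻¹ * t)
    have h2 : (c * m j) * (-c⁻¹ * t) = -(t * m j) := by field_simp
    rw [h2] at h1
    exact h1
  obtain ⟨F, hF0, hF1, hF2⟩ := H565.main_attr_coord (rescale hψ (-c⁻¹))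
    (ρ := fun t x => ψ (-c⁻¹ * t) x) (fun _ _ _ => rfl) hattr hf
  refine ⟨F, hF0, hF1, fun t ht x => ?_⟩
  have hdF : Differentiable ℂ (fun ζ : ℂ => F (ψ (-c⁻¹ * ζ) x)) := by
    intro ζ
    have h1 : MDifferentiableAt 𝓘(ℂ, ℂ) 𝓘(ℂ, E) (fun ζ : ℂ => ψ (-c⁻¹ * ζ) x) ζ :=
      orbit_mdiff (rescale hψ (-c⁻¹)) x ζ
    exact ((F.contMDiff.mdifferentiable (by simp) _).comp ζ h1).differentiableAt
  have hdT : Differentiable ℂ
      (fun ζ : ℂ => ((mfderiv 𝓘(ℂ, E) 𝓘(ℂ, E) (ψ (-c⁻¹ * ζ)) p : E → E) (F x) : E)) :=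
    (differentiable_mfderiv hψ hint hfixψ b hlin (F x)).comp
      ((differentiable_const _).mul differentiable_id)
  let g : ℂ → E := fun ζ => F (ψ ζ x)
  let k : ℂ → E := fun ζ => (mfderiv 𝓘(ℂ, E) 𝓘(ℂ, E) (ψ ζ) p : E → E) (F x)
  have h1 : g (-c⁻¹ * (-c * t)) = k (-c⁻¹ * (-c * t)) :=
    S445.eq_of_pos hdF hdT (fun t ht => hF2 t ht x) (-c * t)
  have h2 : -c⁻¹ * (-c * t) = t := by field_simp
  rw [h2] at h1
  have h3 : F (ψ t x) = (mfderiv 𝓘(ℂ, E) 𝓘(ℂ, E) (ψ t) p : E → E) (F x) := h1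
  rw [hρ t ht] at h3
  exact h3

end Vale.Agent.P253.H567
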