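import Vale.Agent.P253.H567.Loc

/-!
P253: real times belong to the domain of the complex-time flow of a holomorphic semigroup.
-/

open scoped Manifold ContDiff Topology
open Set Metric Complex Filter IsManifold Vale.Agent.P253.Mfd

set_option maxSynthPendingDepth 3
set_option linter.unusedSectionVars false

noncomputable section

namespace Vale.Agent.P253.H567

variable {E : Type*} [NormedAddCommGroup E] [NormedSpace ℂ E] [FiniteDimensional ℂ E]
  {M : Type*} [MetricSpace M] [ChartedSpace E M]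
  [IsManifold 𝓘(ℂ, E) 1 M] [IsManifold 𝓘(ℝ, E) ∞ M]
  {ρ : ℝ → M → M}

theorem continuousOn_time (hρ : IsHolSemigroup E ρ) (x : M) :
    ContinuousOn (fun s : ℝ => ρ s x) (Ici 0) := by
  have h1 : ContinuousOn (fun s : ℝ => (s, x)) (Ici 0) := by fun_prop
  exact hρ.cont.comp h1 (fun s hs => hs)

/-- the complex-time flow extends the semigroup -/
theorem FF_real_of_mem (hρ : IsHolSemigroup E ρ) {t : ℝ} (ht : 0 ≤ t) {x : M}
    (h : ((t : ℂ), x) ∈ H595.DF (Orb E ρ)) : H595.FF (Orb E ρ) t x = ρ t x := by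
  have hZ := locFlow hρ
  have hmem : ∀ s ∈ Icc 0 t, ((s : ℂ), x) ∈ H595.DF (Orb E ρ) := by
    intro s hs
    rcases ht.eq_or_lt with h0 | h0
    · have : s = 0 := le_antisymm (by rw [h0]; exact hs.2) hs.1
      rw [this, ofReal_zero]
      exact H595.zero_mem_DF hZ x
    · have h1 := H595.star_slice (P := Orb E ρ) x h (a := 1 - s / t) (b := s / t)
        (by rw [sub_nonneg, div_le_one h0]; exact hs.2) (div_nonneg hs.1 ht) (by ring)
      have h2 : (1 - s / t) • (0 : ℂ) + (s / t) • (t : ℂ) = s := by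
        rw [smul_zero, zero_add, real_smul, ← ofReal_mul]
        congr 1
        field_simp
      rw [h2] at h1
      exact h1
  have hc1 : ContinuousOn (fun s : ℝ => H595.FF (Orb E ρ) s x) (Icc 0 t) := by
    intro s hs
    have h1 : ContinuousAt (fun w : ℂ => H595.FF (Orb E ρ) w x) s :=
      (hZ.mdiff (H595.FF_int hZ (hmem s hs))).continuousAt
    exact (ContinuousAt.comp (g := fun w : ℂ => H595.FF (Orb E ρ) w x)
      (f := fun s : ℝ => (s : ℂ)) h1 continuous_ofReal.continuousAt).continuousWithinAt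
  have hc2 : ContinuousOn (fun s : ℝ => ρ s x) (Icc 0 t) :=
    (continuousOn_time hρ x).mono (fun s hs => hs.1)
  have hcl : IsClosed ({s : ℝ | H595.FF (Orb E ρ) s x = ρ s x} ∩ Icc 0 t) := by
    have h1 := (hc1.prodMk hc2).preimage_isClosed_of_isClosed isClosed_Icc
      (isClosed_diagonal (X := M))
    have h2 : {s : ℝ | H595.FF (Orb E ρ) s x = ρ s x} ∩ Icc 0 t =
        Icc 0 t ∩ (fun s : ℝ => (H595.FF (Orb E ρ) s x, ρ s x)) ⁻¹' diagonal M := by
      ext s
      simp only [mem_inter_iff, mem_ofPred_eq, mem_preimage, mem_diagonal_iff]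
      tauto
    rw [h2]
    exact h1
  have h0 : (0:ℝ) ∈ {s : ℝ | H595.FF (Orb E ρ) s x = ρ s x} := by
    simp only [mem_ofPred_eq, ofReal_zero, hρ.zero]
    exact H595.FF_zero hZ x
  refine hcl.Icc_subset_of_forall_mem_nhdsWithin h0 ?_ ⟨ht, le_rfl⟩
  rintro s ⟨hs, hs1, hs2⟩
  have h1 := (H595.FF_int hZ (hmem s ⟨hs1, hs2.le⟩)).2.self_of_nhds
  have h2 : Tendsto (fun u : ℝ => u - s) (𝓝[>] s) (𝓝[>] 0) := by
    refine tendsto_nhdsWithin_of_tendsto_nhds_of_eventually_within _ ?_ ?_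
    · have h5 : Continuous (fun u : ℝ => u - s) := by fun_prop
      have h6 := h5.tendsto s
      rw [sub_self] at h6
      exact h6.mono_left nhdsWithin_le_nhds
    · filter_upwards [self_mem_nhdsWithin] with u hu
      simpa using hu
  filter_upwards [h2.eventually h1, self_mem_nhdsWithin] with u hu hu2
  have hsu : s < u := hu2
  have h3 : (s : ℂ) + ((u - s : ℝ) : ℂ) = u := by push_cast; ring
  rw [h3] at hu
  change H595.FF (Orb E ρ) u x = ρ u x
  rw [hu]
  have h4 : H595.FF (Orb E ρ) s x = ρ s x := hs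
  rw [h4, ← hρ.add (u - s) s x (by linarith) hs1, sub_add_cancel]

/-- all real times `t ≥ 0` belong to the domain of the complex-time flow -/
theorem real_mem_DF (hρ : IsHolSemigroup E ρ) {t : ℝ} (ht : 0 ≤ t) (x : M) :
    ((t : ℂ), x) ∈ H595.DF (Orb E ρ) := by
  have hZ := locFlow hρ
  by_contra hcon
  set S : Set ℝ := {s | 0 ≤ s ∧ ((s : ℂ), x) ∈ H595.DF (Orb E ρ)} with hS
  have hdown : ∀ s ∈ S, ∀ u : ℝ, 0 ≤ u → u ≤ s → u ∈ S := by
    intro s hs u hu hus
    refine ⟨hu, ?_⟩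
    rcases hs.1.eq_or_lt with h0 | h0
    · have : u = 0 := le_antisymm (by rw [h0]; exact hus) hu
      rw [this, ofReal_zero]
      exact H595.zero_mem_DF hZ x
    · have h1 := H595.star_slice (P := Orb E ρ) x hs.2 (a := 1 - u / s) (b := u / s)
        (by rw [sub_nonneg, div_le_one h0]; exact hus) (div_nonneg hu hs.1) (by ring)
      have h2 : (1 - u / s) • (0 : ℂ) + (u / s) • (s : ℂ) = u := by
        rw [smul_zero, zero_add, real_smul, ← ofReal_mul]
        congr 1
        field_simp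
      rw [h2] at h1
      exact h1
  have hbdd : BddAbove S := by
    refine ⟨t, fun s hs => ?_⟩
    by_contra h1
    push Not at h1
    exact hcon (hdown s hs t ht h1.le).2
  have h0S : (0:ℝ) ∈ S := ⟨le_rfl, by rw [ofReal_zero]; exact H595.zero_mem_DF hZ x⟩
  have hne : S.Nonempty := ⟨0, h0S⟩
  set T := sSup S with hT
  have hlt : ∀ u : ℝ, 0 ≤ u → u < T → u ∈ S := by
    intro u hu huT
    obtain ⟨s, hs, hus⟩ := exists_lt_of_lt_csSup hne huT
    exact hdown s hs u hu hus.le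
  -- `T` is positive
  have hTpos : 0 < T := by
    have h1 : {ζ : ℂ | (ζ, x) ∈ H595.DF (Orb E ρ)} ∈ 𝓝 (0:ℂ) :=
      (H595.isOpen_slice (P := Orb E ρ) x).mem_nhds (H595.zero_mem_DF hZ x)
    obtain ⟨ε, hε, hb⟩ := Metric.mem_nhds_iff.1 h1
    have h2 : ε / 2 ∈ S := by
      refine ⟨by positivity, ?_⟩
      apply hb
      rw [mem_ball_zero_iff, norm_real, Real.norm_eq_abs, abs_of_pos (by positivity)]
      linarith
    exact lt_of_lt_of_le (by positivity) (le_csSup hbdd h2)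
  obtain ⟨δ, hδ, U, hU, hyU, H, hH0, hHP, -⟩ := hZ.loc (ρ T x)
  have hcA : ContinuousAt (fun s : ℝ => ρ s x) T :=
    (continuousOn_time hρ x).continuousAt (Ici_mem_nhds hTpos)
  have hev1 : ∀ᶠ s : ℝ in 𝓝 T, ρ s x ∈ U := hcA.eventually (hU.mem_nhds hyU)
  have hmax : max 0 (T - δ / 2) < T := max_lt hTpos (by linarith)
  have hev2 : ∀ᶠ s : ℝ in 𝓝 T, max 0 (T - δ / 2) < s := lt_mem_nhds hmax
  obtain ⟨s, ⟨hs1, hs2⟩, hs3⟩ :=
    (((hev1.and hev2).filter_mono (nhdsWithin_le_nhds (s := Iio T))).and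
      self_mem_nhdsWithin).exists
  have hsT : s < T := hs3
  have hs0 : 0 < s := (le_max_left _ _).trans_lt hs2
  have hsδ : T - δ / 2 < s := (le_max_right _ _).trans_lt hs2
  have hsS := hlt s hs0.le hsT
  have hval : H595.FF (Orb E ρ) s x = ρ s x := FF_real_of_mem hρ hs0.le hsS.2
  have hsC : (s : ℂ) ≠ 0 := by exact_mod_cast hs0.ne'
  have h1 := H595.FF_radial hZ (w := (s : ℂ)) (t := ((s + 3 * δ / 4 : ℝ) : ℂ)) (x := x) hsS.2
    (δ := δ) (g := fun w => H w (ρ s x)) (fun ζ hζ => hHP _ hs1 ζ hζ) (c := 0)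
    (mem_ball_self hδ) (by simp only [hH0 _ hs1, hval]) (κ := (s + 3 * δ / 4) / s)
    (by positivity) (by push_cast; field_simp) (by
      have h2 : ((s + 3 * δ / 4 : ℝ) : ℂ) - (s : ℂ) + 0 = ((3 * δ / 4 : ℝ) : ℂ) := by
        push_cast; ring
      rw [h2, mem_ball_zero_iff, norm_real, Real.norm_eq_abs, abs_of_pos (by positivity)]
      linarith)
  have h2 : s + 3 * δ / 4 ∈ S := ⟨by positivity, h1.1⟩
  have h3 := le_csSup hbdd h2
  linarith

theorem FF_real (hρ : IsHolSemigroup E ρ) {t : ℝ} (ht : 0 ≤ t) (x : M) :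
    H595.FF (Orb E ρ) t x = ρ t x :=
  FF_real_of_mem hρ ht (real_mem_DF hρ ht x)

end Vale.Agent.P253.H567
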